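import Vale.Agent.P095.Bdl.B6
import Vale.Agent.P095.H586.Defs

/-! C*-algebras generated by a covariant pair: the local criterion passes from the action to the
C*-algebra generated by the pair. -/

open Filter Topology

namespace Vale.Agent.P095.H987

universe u w

open Vale.Agent.P095R Vale.Agent.P095.H586

variable {A C D : Type u} [NonUnitalCStarAlgebra A] [NonUnitalCStarAlgebra C] [CStarAlgebra D]
  {G : Type w} [Group G] {α : G →* (A ≃⋆ₐ[ℂ] A)} {ω : G → G → ℂ}
  {π : A →⋆ₙₐ[ℂ] D} {v : G → D} {ι : C →⋆ₙₐ[ℂ] D}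

/-- `x` nearly commutes with `F` and is nearly fixed by `S` on `F`. -/
def Near (α : G →* (A ≃⋆ₐ[ℂ] A)) (F : Finset A) (S : Finset G) (η : ℝ) (x : A) : Prop :=
  (∀ a ∈ F, ‖x * a - a * x‖ ≤ η) ∧ ∀ g ∈ S, ∀ a ∈ F, ‖a * (α g x - x)‖ ≤ η

theorem Near.mono {F F' : Finset A} {S S' : Finset G} {η η' : ℝ} {x : A}
    (h : Near α F' S' η' x) (hF : F ⊆ F') (hS : S ⊆ S') (hη : η' ≤ η) : Near α F S η x :=
  ⟨fun a ha => (h.1 a (hF ha)).trans hη, fun g hg a ha => (h.2 g (hS hg) a (hF ha)).trans hη⟩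

theorem v_mul_pi (h : IsCovariantImage α ω π v ι) (g : G) (a : A) :
    v g * π a = π (α g a) * v g := by
  rw [← h.covariant g a, mul_assoc, Unitary.star_mul_self_of_mem (h.unitary g), mul_one]

theorem norm_mul_v (h : IsCovariantImage α ω π v ι) (g : G) (z : D) : ‖z * v g‖ = ‖z‖ :=
  CStarRing.norm_mul_mem_unitary _ (h.unitary g)

theorem comm_span (h : IsCovariantImage α ω π v ι) {s : D}
    (hs : s ∈ Submodule.span ℂ {x : D | ∃ a g, x = π a * v g}) :
    ∃ (F : Finset A) (S : Finset G) (K : ℝ), 0 ≤ K ∧ ∀ η x, Near α F S η x →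
      ‖π x * s - s * π x‖ ≤ K * η := by
  classical
  induction hs using Submodule.span_induction with
  | mem y hy =>
    obtain ⟨a, g, rfl⟩ := hy
    refine ⟨{a}, {g}, 2, by norm_num, fun η x hx => ?_⟩
    have e : π x * (π a * v g) - π a * v g * π x =
        π ((x * a - a * x) - a * (α g x - x)) * v g := by
      rw [mul_assoc, v_mul_pi h g x, ← mul_assoc, ← mul_assoc, ← map_mul, ← map_mul, ← sub_mul,
        ← map_sub]
      congr 2
      rw [mul_sub]
      abel
    rw [e, norm_mul_v h]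
    refine (NonUnitalStarAlgHom.norm_apply_le π _).trans ((norm_sub_le _ _).trans ?_)
    have h1 := hx.1 a (Finset.mem_singleton_self a)
    have h2 := hx.2 g (Finset.mem_singleton_self g) a (Finset.mem_singleton_self a)
    linarith
  | zero => exact ⟨∅, ∅, 0, le_rfl, fun η x _ => by simp⟩
  | add y z _ _ hy hz =>
    obtain ⟨F, S, K, hK, h1⟩ := hy
    obtain ⟨F', S', K', hK', h2⟩ := hz
    refine ⟨F ∪ F', S ∪ S', K + K', add_nonneg hK hK', fun η x hx => ?_⟩
    have e : π x * (y + z) - (y + z) * π x = (π x * y - y * π x) + (π x * z - z * π x) := by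
      noncomm_ring
    rw [e, add_mul]
    exact (norm_add_le _ _).trans (add_le_add
      (h1 η x (hx.mono Finset.subset_union_left Finset.subset_union_left le_rfl))
      (h2 η x (hx.mono Finset.subset_union_right Finset.subset_union_right le_rfl)))
  | smul c y _ hy =>
    obtain ⟨F, S, K, hK, h1⟩ := hy
    refine ⟨F, S, ‖c‖ * K, mul_nonneg (norm_nonneg _) hK, fun η x hx => ?_⟩
    have e : π x * (c • y) - (c • y) * π x = c • (π x * y - y * π x) := by
      rw [mul_smul_comm, smul_mul_assoc, smul_sub]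
    rw [e, norm_smul, mul_assoc]
    exact mul_le_mul_of_nonneg_left (h1 η x hx) (norm_nonneg _)

theorem unit_span (h : IsCovariantImage α ω π v ι) {s : D}
    (hs : s ∈ Submodule.span ℂ {x : D | ∃ a g, x = π a * v g}) :
    ∃ (F : Finset A) (K : ℝ), 0 ≤ K ∧ ∀ η y, (∀ a ∈ F, ‖a * y - a‖ ≤ η) →
      ‖s * π y - s‖ ≤ K * η := by
  classical
  induction hs using Submodule.span_induction with
  | mem y hy =>
    obtain ⟨a, g, rfl⟩ := hy
    refine ⟨{α g⁻¹ a}, 1, zero_le_one, fun η y hy => ?_⟩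
    have e1 : α g (α g⁻¹ a) = a := by
      have : (α g * α g⁻¹) a = a := by rw [← map_mul, mul_inv_cancel, map_one]; rfl
      exact this
    have e : π a * v g * π y - π a * v g = π (α g (α g⁻¹ a * y - α g⁻¹ a)) * v g := by
      rw [mul_assoc, v_mul_pi h g y, ← mul_assoc, ← map_mul, ← sub_mul, ← map_sub, map_sub (α g),
        map_mul (α g), e1]
    rw [e, norm_mul_v h, one_mul]
    refine (NonUnitalStarAlgHom.norm_apply_le π _).trans ?_
    refine le_trans ?_ (hy _ (Finset.mem_singleton_self _))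
    exact NonUnitalStarAlgHom.norm_apply_le (α g : A →⋆ₙₐ[ℂ] A) _
  | zero => exact ⟨∅, 0, le_rfl, fun η x _ => by simp⟩
  | add y z _ _ hy hz =>
    obtain ⟨F, K, hK, h1⟩ := hy
    obtain ⟨F', K', hK', h2⟩ := hz
    refine ⟨F ∪ F', K + K', add_nonneg hK hK', fun η x hx => ?_⟩
    have e : (y + z) * π x - (y + z) = (y * π x - y) + (z * π x - z) := by noncomm_ring
    rw [e, add_mul]
    exact (norm_add_le _ _).trans (add_le_add
      (h1 η x fun a ha => hx a (Finset.mem_union_left _ ha))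
      (h2 η x fun a ha => hx a (Finset.mem_union_right _ ha)))
  | smul c y _ hy =>
    obtain ⟨F, K, hK, h1⟩ := hy
    refine ⟨F, ‖c‖ * K, mul_nonneg (norm_nonneg _) hK, fun η x hx => ?_⟩
    have e : (c • y) * π x - c • y = c • (y * π x - y) := by
      rw [smul_mul_assoc, smul_sub]
    rw [e, norm_smul, mul_assoc]
    exact mul_le_mul_of_nonneg_left (h1 η x hx) (norm_nonneg _)

theorem exists_span_near (h : IsCovariantImage α ω π v ι) (c : C) {δ : ℝ} (hδ : 0 < δ) :
    ∃ s ∈ Submodule.span ℂ {x : D | ∃ a g, x = π a * v g}, ‖ι c - s‖ < δ := by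
  have h1 : ι c ∈ closure (Submodule.span ℂ {x : D | ∃ a g, x = π a * v g} : Set D) := by
    rw [← h.range]
    exact ⟨c, rfl⟩
  obtain ⟨s, hs, hd⟩ := Metric.mem_closure_iff.1 h1 δ hδ
  exact ⟨s, hs, by rwa [dist_eq_norm] at hd⟩

theorem comm_C (h : IsCovariantImage α ω π v ι) (B : ℝ) (c : C) {ε : ℝ} (hε : 0 < ε) :
    ∃ (F : Finset A) (S : Finset G) (η : ℝ), 0 < η ∧ ∀ x, ‖x‖ ≤ B → Near α F S η x →
      ‖π x * ι c - ι c * π x‖ ≤ ε := by
  obtain ⟨s, hs, hd⟩ := exists_span_near h c (δ := ε / (4 * (|B| + 1))) (by positivity)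
  obtain ⟨F, S, K, hK, h1⟩ := comm_span h hs
  refine ⟨F, S, ε / (2 * (K + 1)), by positivity, fun x hx hn => ?_⟩
  have h2 := h1 _ x hn
  have h3 : ‖π x‖ ≤ |B| := (NonUnitalStarAlgHom.norm_apply_le π _).trans (hx.trans (le_abs_self B))
  have e : π x * ι c - ι c * π x = π x * (ι c - s) - (ι c - s) * π x + (π x * s - s * π x) := by
    noncomm_ring
  have h4 : ‖π x * (ι c - s)‖ ≤ |B| * (ε / (4 * (|B| + 1))) :=
    (norm_mul_le _ _).trans (mul_le_mul h3 hd.le (norm_nonneg _) (abs_nonneg _))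
  have h5 : ‖(ι c - s) * π x‖ ≤ |B| * (ε / (4 * (|B| + 1))) := by
    refine (norm_mul_le _ _).trans ?_
    rw [mul_comm]
    exact mul_le_mul h3 hd.le (norm_nonneg _) (abs_nonneg _)
  have h6 : |B| * (ε / (4 * (|B| + 1))) ≤ ε / 4 := by
    have hB : 0 ≤ |B| := abs_nonneg B
    rw [← mul_div_assoc, div_le_div_iff₀ (by positivity) (by norm_num)]
    nlinarith
  have h7 : K * (ε / (2 * (K + 1))) ≤ ε / 2 := by
    rw [← mul_div_assoc, div_le_div_iff₀ (by positivity) (by norm_num)]
    nlinarith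
  rw [e]
  have h8 := norm_add_le (π x * (ι c - s) - (ι c - s) * π x) (π x * s - s * π x)
  have h9 := norm_sub_le (π x * (ι c - s)) ((ι c - s) * π x)
  linarith

theorem unit_C (h : IsCovariantImage α ω π v ι) (B : ℝ) (c : C) {ε : ℝ} (hε : 0 < ε) :
    ∃ (F : Finset A) (η : ℝ), 0 < η ∧ ∀ y, ‖y‖ ≤ B → (∀ a ∈ F, ‖a * y - a‖ ≤ η) →
      ‖ι c * π y - ι c‖ ≤ ε := by
  obtain ⟨s, hs, hd⟩ := exists_span_near h c (δ := ε / (2 * (|B| + 1))) (by positivity)
  obtain ⟨F, K, hK, h1⟩ := unit_span h hs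
  refine ⟨F, ε / (2 * (K + 1)), by positivity, fun x hx hn => ?_⟩
  have h2 := h1 _ x hn
  have h3 : ‖π x‖ ≤ |B| := (NonUnitalStarAlgHom.norm_apply_le π _).trans (hx.trans (le_abs_self B))
  have e : ι c * π x - ι c = (ι c - s) * π x - (ι c - s) + (s * π x - s) := by
    noncomm_ring
  have h5 : ‖(ι c - s) * π x‖ ≤ |B| * (ε / (2 * (|B| + 1))) := by
    refine (norm_mul_le _ _).trans ?_
    rw [mul_comm]
    exact mul_le_mul h3 hd.le (norm_nonneg _) (abs_nonneg _)
  have h6 : |B| * (ε / (2 * (|B| + 1))) + ε / (2 * (|B| + 1)) = ε / 2 := by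
    have hB : 0 ≤ |B| := abs_nonneg B
    field_simp
  have h7 : K * (ε / (2 * (K + 1))) ≤ ε / 2 := by
    rw [← mul_div_assoc, div_le_div_iff₀ (by positivity) (by norm_num)]
    nlinarith
  rw [e]
  have h8 := norm_add_le ((ι c - s) * π x - (ι c - s)) (s * π x - s)
  have h9 := norm_sub_le ((ι c - s) * π x) (ι c - s)
  linarith

theorem comm_F (h : IsCovariantImage α ω π v ι) (B : ℝ) {ε : ℝ} (hε : 0 < ε) (F₀ : Finset C) :
    ∃ (F : Finset A) (S : Finset G) (η : ℝ), 0 < η ∧ ∀ x, ‖x‖ ≤ B → Near α F S η x →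
      ∀ c ∈ F₀, ‖π x * ι c - ι c * π x‖ ≤ ε := by
  classical
  induction F₀ using Finset.induction_on with
  | empty => exact ⟨∅, ∅, 1, one_pos, fun x _ _ c hc => absurd hc (Finset.notMem_empty c)⟩
  | insert c F₀ _ ih =>
    obtain ⟨F, S, η, hη, h1⟩ := ih
    obtain ⟨F', S', η', hη', h2⟩ := comm_C h B c hε
    refine ⟨F ∪ F', S ∪ S', min η η', lt_min hη hη', fun x hx hn d hd => ?_⟩
    rcases Finset.mem_insert.1 hd with rfl | hd
    · exact h2 x hx (hn.mono Finset.subset_union_right Finset.subset_union_right (min_le_right _ _))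
    · exact h1 x hx (hn.mono Finset.subset_union_left Finset.subset_union_left (min_le_left _ _))
        d hd

theorem unit_F (h : IsCovariantImage α ω π v ι) (B : ℝ) {ε : ℝ} (hε : 0 < ε) (F₀ : Finset C) :
    ∃ (F : Finset A) (η : ℝ), 0 < η ∧ ∀ y, ‖y‖ ≤ B → (∀ a ∈ F, ‖a * y - a‖ ≤ η) →
      ∀ c ∈ F₀, ‖ι c * π y - ι c‖ ≤ ε := by
  classical
  induction F₀ using Finset.induction_on with
  | empty => exact ⟨∅, 1, one_pos, fun x _ _ c hc => absurd hc (Finset.notMem_empty c)⟩
  | insert c F₀ _ ih =>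
    obtain ⟨F, η, hη, h1⟩ := ih
    obtain ⟨F', η', hη', h2⟩ := unit_C h B c hε
    refine ⟨F ∪ F', min η η', lt_min hη hη', fun x hx hn d hd => ?_⟩
    rcases Finset.mem_insert.1 hd with rfl | hd
    · exact h2 x hx fun a ha => (hn a (Finset.mem_union_right _ ha)).trans (min_le_right _ _)
    · exact h1 x hx (fun a ha => (hn a (Finset.mem_union_left _ ha)).trans (min_le_left _ _)) d hd

theorem pi_mem_span (h : IsCovariantImage α ω π v ι) (x : A) :
    π x ∈ Submodule.span ℂ {x : D | ∃ a g, x = π a * v g} := by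
  have h1 : v 1 = ω 1 1 • (1 : D) := by
    have h2 := h.mul 1 1
    rw [mul_one] at h2
    have h3 := congrArg (fun z => z * star (v 1)) h2
    simp only [mul_assoc, smul_mul_assoc, Unitary.mul_star_self_of_mem (h.unitary 1), mul_one]
      at h3
    exact h3
  have h2 : π x = star (ω 1 1) • (π x * v 1) := by
    have h3 : (1 : D) = star (ω 1 1) • v 1 := by
      have h4 := Unitary.mul_star_self_of_mem (h.unitary 1)
      nth_rewrite 2 [h1] at h4
      rw [star_smul, star_one, mul_smul_comm, mul_one] at h4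
      exact h4.symm
    calc π x = π x * 1 := (mul_one _).symm
      _ = π x * (star (ω 1 1) • v 1) := by rw [← h3]
      _ = _ := mul_smul_comm _ _ _
  rw [h2]
  exact Submodule.smul_mem _ _ (Submodule.subset_span ⟨x, 1, rfl⟩)

theorem exists_preimage (h : IsCovariantImage α ω π v ι) (x : A) : ∃ c : C, ι c = π x := by
  have h1 : π x ∈ Set.range ι := by
    rw [h.range]
    exact subset_closure (pi_mem_span h x)
  exact h1

/-- The local criterion for an action implies the local criterion for (the trivial group acting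
on) every C*-algebra generated by a covariant pair. -/
theorem noChar_of_covariant (hN : NoCharLocalN α) (h : IsCovariantImage α ω π v ι) :
    NoCharLocalN (1 : PUnit.{1} →* (C ≃⋆ₐ[ℂ] C)) := by
  classical
  obtain ⟨m, R, hM⟩ := hN
  choose κ hκ using exists_preimage h
  have hκn : ∀ x, ‖κ x‖ ≤ ‖x‖ := fun x => by
    rw [← NonUnitalStarAlgHom.norm_map ι h.injective, hκ]
    exact NonUnitalStarAlgHom.norm_apply_le π x
  have hιn : ∀ c : C, ‖c‖ = ‖ι c‖ := fun c =>
    (NonUnitalStarAlgHom.norm_map ι h.injective c).symm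
  refine ⟨m, R, fun F _ ε hε => ?_⟩
  obtain ⟨F₁, S₁, η₁, hη₁, h1⟩ := comm_F h R hε F
  obtain ⟨F₂, η₂, hη₂, h2⟩ := unit_F h (∑ _i : Fin m, R * (R * R + R * R) * R) hε F
  obtain ⟨x, hx1, hx2, hx3, hx4⟩ := hM (F₁ ∪ F₂) S₁ (min η₁ η₂) (lt_min hη₁ hη₂)
  have hmap : ι (∑ i, κ (x 0 i) * (κ (x 1 i) * κ (x 2 i) - κ (x 2 i) * κ (x 1 i)) * κ (x 3 i)) =
      π (∑ i, x 0 i * (x 1 i * x 2 i - x 2 i * x 1 i) * x 3 i) := by
    rw [map_sum, map_sum]
    refine Finset.sum_congr rfl fun i _ => ?_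
    simp only [map_mul, map_sub, hκ]
  refine ⟨fun q i => κ (x q i), fun q i => (hκn _).trans (hx1 q i), fun q i c hc => ?_,
    fun q i g _ c _ => ?_, fun c hc => ?_⟩
  · rw [hιn, map_sub, map_mul, map_mul, hκ]
    refine h1 (x q i) (hx1 q i) ⟨fun a ha => ?_, fun g hg a ha => ?_⟩ c hc
    · exact (hx2 q i a (Finset.mem_union_left _ ha)).trans (min_le_left _ _)
    · exact (hx3 q i g hg a (Finset.mem_union_left _ ha)).trans (min_le_left _ _)
  · have e : (1 : PUnit.{1} →* (C ≃⋆ₐ[ℂ] C)) g (κ (x q i)) = κ (x q i) := rfl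
    rw [e, sub_self, mul_zero, norm_zero]
    exact hε.le
  · rw [hιn, map_sub, map_mul, hmap]
    refine h2 _ ?_ (fun a ha => (hx4 a (Finset.mem_union_right _ ha)).trans (min_le_right _ _)) c hc
    refine (norm_sum_le _ _).trans (Finset.sum_le_sum fun i _ => ?_)
    have hR : 0 ≤ R := (norm_nonneg _).trans (hx1 0 i)
    have h01 := hx1 0 i
    have h11 := hx1 1 i
    have h21 := hx1 2 i
    have h31 := hx1 3 i
    have h12 : ‖x 1 i * x 2 i‖ ≤ R * R :=
      (norm_mul_le _ _).trans (mul_le_mul h11 h21 (norm_nonneg _) hR)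
    have h22 : ‖x 2 i * x 1 i‖ ≤ R * R :=
      (norm_mul_le _ _).trans (mul_le_mul h21 h11 (norm_nonneg _) hR)
    have h5 : ‖x 1 i * x 2 i - x 2 i * x 1 i‖ ≤ R * R + R * R :=
      (norm_sub_le _ _).trans (add_le_add h12 h22)
    refine (norm_mul_le _ _).trans (mul_le_mul ?_ h31 (norm_nonneg _) (by positivity))
    exact (norm_mul_le _ _).trans (mul_le_mul h01 h5 (norm_nonneg _) hR)

/-- A C*-algebra generated by a covariant pair of a countable group acting on a separable
C*-algebra is separable. -/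
theorem separable_of_covariant [TopologicalSpace.SeparableSpace A] [Countable G]
    (h : IsCovariantImage α ω π v ι) : TopologicalSpace.SeparableSpace C := by
  have hπ : Continuous π :=
    AddMonoidHomClass.continuous_of_bound π 1 fun x => by
      rw [one_mul]; exact NonUnitalStarAlgHom.norm_apply_le π x
  have h1 : TopologicalSpace.IsSeparable {x : D | ∃ a g, x = π a * v g} := by
    have e : {x : D | ∃ a g, x = π a * v g} = ⋃ g : G, Set.range fun a => π a * v g := by
      ext x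
      simp only [Set.mem_ofPred_eq, Set.mem_iUnion, Set.mem_range]
      constructor
      · rintro ⟨a, g, rfl⟩
        exact ⟨g, a, rfl⟩
      · rintro ⟨g, a, rfl⟩
        exact ⟨a, g, rfl⟩
    rw [e]
    exact TopologicalSpace.IsSeparable.iUnion fun g =>
      TopologicalSpace.isSeparable_range (hπ.mul continuous_const)
  have h2 : TopologicalSpace.IsSeparable (Set.range ι) := by
    rw [h.range]
    exact (h1.span (R := ℂ)).closure
  have hiso : Isometry ι := AddMonoidHomClass.isometry_of_norm ι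
    (NonUnitalStarAlgHom.norm_map ι h.injective)
  have h3 : TopologicalSpace.SeparableSpace (Set.range ι) := h2.separableSpace
  have h4 : Topology.IsEmbedding ι := hiso.isEmbedding
  have h5 : TopologicalSpace.IsSeparable (Set.univ : Set C) := by
    have h6 : (Set.univ : Set C) = ι ⁻¹' (Set.range ι) := by
      ext x; simp
    rw [h6]
    exact h4.isSeparable_preimage h2
  exact TopologicalSpace.isSeparable_univ_iff.1 h5

end Vale.Agent.P095.H987
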